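import Vale.Agent.P131.Bdl.B1

namespace Vale.Agent.Results.P131.Disproof

universe u

/-- `T` is nonscalar: it is not a scalar multiple of the identity. -/
def Nonscalar {H : Type u} [NormedAddCommGroup H] [InnerProductSpace ℂ H] (T : H →L[ℂ] H) : Prop :=
  ∀ z : ℂ, T ≠ z • ContinuousLinearMap.id ℂ H

/-- The commutant of `T`: all bounded operators commuting with `T`. -/
def commutant {H : Type u} [NormedAddCommGroup H] [InnerProductSpace ℂ H] (T : H →L[ℂ] H) :
    Set (H →L[ℂ] H) :=
  {A | A ∘L T = T ∘L A}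

/-- `M` is a closed subspace invariant under the commutant of `T`. -/
def Hyperinvariant {H : Type u} [NormedAddCommGroup H] [InnerProductSpace ℂ H] (T : H →L[ℂ] H)
    (M : Submodule ℂ H) : Prop :=
  IsClosed (M : Set H) ∧ ∀ A ∈ commutant T, ∀ x ∈ M, A x ∈ M

/-- The only closed subspaces invariant under every member of `S` are `0` and `H`. -/
def Transitive {H : Type u} [NormedAddCommGroup H] [InnerProductSpace ℂ H]
    (S : Set (H →L[ℂ] H)) : Prop :=
  ∀ M : Submodule ℂ H, IsClosed (M : Set H) → (∀ A ∈ S, ∀ x ∈ M, A x ∈ M) → M = ⊥ ∨ M = ⊤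

/-- On every separable infinite-dimensional complex Hilbert space there is a nonscalar bounded
operator whose commutant is transitive, i.e. without nontrivial hyperinvariant subspace. -/
theorem result (H : Type u) [NormedAddCommGroup H] [InnerProductSpace ℂ H] [CompleteSpace H]
    [TopologicalSpace.SeparableSpace H] (hH : ¬ FiniteDimensional ℂ H) :
    ∃ T : H →L[ℂ] H, Nonscalar T ∧ Transitive (commutant T) ∧
      ¬ ∃ M : Submodule ℂ H, Hyperinvariant T M ∧ M ≠ ⊥ ∧ M ≠ ⊤ := by
  obtain ⟨T, h1, h2⟩ := Vale.Agent.P131.main H hH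
  refine ⟨T, h1, fun M hM hA => h2 M hM hA, ?_⟩
  rintro ⟨M, ⟨hM, hA⟩, h3, h4⟩
  rcases h2 M hM hA with h | h
  · exact h3 h
  · exact h4 h

end Vale.Agent.Results.P131.Disproof
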